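import Vale.Agent.N034.Scale
import Vale.Agent.N034.Lower

namespace Vale.Agent.Results.P034.A0Sharper

open Vale.Agent.P034 Vale.Agent.N034

universe u

/-- The constant `K = 97` in `q_f ≤ K q`, a lower bound for the best constant, and two cost
inequalities for weights that vary with the point. -/
theorem result :
    (∀ (X : Type u) [Fintype X] [Nonempty X] (F : Set (Finset X)),
      F.Nonempty → F ≠ Set.univ → IsUpperSet F →
        ∀ q qf : ℝ,
          IsGreatest {p : ℝ | 0 ≤ p ∧ p ≤ 1 ∧ ∃ G : Finset (Finset X),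
            (∀ H ∈ F, ∃ S ∈ G, S ⊆ H) ∧ ∑ S ∈ G, p ^ S.card ≤ 1 / 2} q →
          IsGreatest {p : ℝ | 0 ≤ p ∧ p ≤ 1 ∧ ∃ g : Finset X → ℝ,
            (∀ S, 0 ≤ g S ∧ g S ≤ 1) ∧ (∀ H ∈ F, 1 ≤ ∑ S ∈ H.powerset, g S) ∧
            ∑ S : Finset X, g S * p ^ S.card ≤ 1 / 2} qf →
          -- (1) the constant `97`
          qf ≤ 97 * q ∧
          -- (2) the constant cannot be `8 / 7`
          (1000 ≤ Fintype.card X → F = {H : Finset X | 3 ≤ H.card} → 8 / 7 * q < qf)) ∧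
    (∀ (X : Type u) [Fintype X] (F : Set (Finset X)) (p : X → ℝ) (g : Finset X → ℝ),
      (∀ x, 0 ≤ p x) → (∀ S, 0 ≤ g S) → (∀ H ∈ F, 1 ≤ ∑ S ∈ H.powerset, g S) →
      ∀ w : ℝ, w = ∑ S : Finset X, g S * ∏ x ∈ S, p x →
        -- (3) a cover of cost `c` at `p / 97` with `c (1 - w) ≤ 1 / 4`
        (∃ G : Finset (Finset X), (∀ H ∈ F, ∃ S ∈ G, S ⊆ H) ∧
          (∑ S ∈ G, ∏ x ∈ S, (p x / 97)) * (1 - w) ≤ 1 / 4) ∧
        -- (4) a cover of cost at most `w` at `p / 130`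
        (∃ G : Finset (Finset X), (∀ H ∈ F, ∃ S ∈ G, S ⊆ H) ∧
          ∑ S ∈ G, ∏ x ∈ S, (p x / 130) ≤ w)) := by
  classical
  refine ⟨?_, ?_⟩
  · intro X _ _ F _ hne hup q qf hq hqf
    have h0 := empty_not_mem F hne hup
    have h2 := isGreatest_frac F h0
    obtain rfl : q = expThreshold F := hq.unique (isGreatest_small F h0)
    obtain rfl : qf = fracExpThreshold F := by
      refine le_antisymm ?_ ?_
      · obtain ⟨a, b, g, hg, hc, hcost⟩ := hqf.1
        exact h2.2 ⟨a, b, g, ⟨hg, hc⟩, hcost⟩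
      · obtain ⟨⟨a, b, g, ⟨hg, hc⟩, hcost⟩, _⟩ := h2
        exact hqf.2 ⟨a, b, g, hg, hc, hcost⟩
    refine ⟨N034.threshold_le F h0, ?_⟩
    rintro hn rfl
    have := lower hn
    linarith only [this]
  · rintro X _ F p g hp hg hF w rfl
    exact ⟨cost_ineq F p hp g hg hF, N034.scale_nonneg F p hp g hg hF⟩

end Vale.Agent.Results.P034.A0Sharper
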